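import Vale.Agent.P284.H650.T.Spec
import Vale.Agent.P284.H338.IndQ
import Vale.Agent.P284.H501.T.UniT
import Vale.Agent.P284.H15.T.LimF
import Vale.Agent.P284.H812.NSF18

/-!
# P284 (helper383), T3⁺, module (I3): the case `q = 0`
-/

open scoped Manifold ContDiff Topology InnerProductSpace
open Filter Set Metric

noncomputable section

namespace Vale.Agent.P284.H383.T

open Vale.Agent.P272.K Vale.Agent.P284.H894 Vale.Agent.P284.H894.G Vale.Agent.P284.H894.V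
  Vale.Agent.P284.H894.W Vale.Agent.P284.H573 Vale.Agent.P284.H213.Grp Vale.Agent.P284.H213.Q
  Vale.Agent.P284.H619 Vale.Agent.P284.H378 Vale.Agent.P284.H998 Vale.Agent.P284.H395
  Vale.Agent.P284.H837 Vale.Agent.P284.H625 Vale.Agent.P284.H501.Core Vale.Agent.P284.H501.T
  Vale.Agent.P284.H119.Kaz Vale.Agent.P284.H551 Vale.Agent.P284.H837.N

/-- normal subgroups of finite index of groups with property (T) have property (T) -/
theorem kaz_sub {Γ : Type} [Group Γ] {K : Subgroup Γ} (hn : K.Normal) (hfi : K.FiniteIndex)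
    (h : Kazhdan Γ) : Kazhdan K := by
  by_contra hK
  obtain ⟨S, ε, hε, h⟩ := h
  haveI : Finite (Γ ⧸ K) := inferInstance
  obtain ⟨H, i1, i2, i3, π, ξ, hξ, hs, h0⟩ :=
    H338.Ind.exists_rep (K := K) H338.Ind.folner_finite hK (S : Set Γ) S.finite_toSet hε
  obtain ⟨η, hη, hη'⟩ := h H π ξ hξ fun s hs' => hs s hs'
  exact hη (h0 η fun k _ => hη' k)

/-- `FinRep` from the representations of `Γ` on a subgroup of finite index -/
theorem finRep_of_in {Γ : Type} [Group Γ] {K : Subgroup Γ} (hfi : K.FiniteIndex)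
    (h : H478.G.FinRepIn Γ K) : H573.DK.FinRep Γ := by
  intro V _ _ _ ρ
  haveI : Finite (Γ ⧸ K) := inferInstance
  have h1 := h V ρ
  refine ((Set.finite_range fun a : Γ ⧸ K => ρ a.out).image2 (fun x y => x * y) h1).subset ?_
  rintro _ ⟨g, rfl⟩
  refine ⟨_, ⟨(g : Γ ⧸ K), rfl⟩, _, ⟨((g : Γ ⧸ K).out)⁻¹ * g, ?_, rfl⟩, ?_⟩
  · have h2 : (((g : Γ ⧸ K).out : Γ) : Γ ⧸ K) = (g : Γ ⧸ K) := QuotientGroup.out_eq' _
    exact QuotientGroup.eq.1 h2
  · show ρ _ * ρ _ = ρ g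
    rw [← map_mul, mul_inv_cancel_left]

/-- the core for `q = 0`, manifolds with `NoV` (after helper213, helper501) -/
theorem core0N {n : ℕ} {X : Type}
    [TopologicalSpace X] [T2Space X] [CompactSpace X] [ConnectedSpace X]
    [ChartedSpace (Cm n) X] [IsManifold 𝓘(ℂ, Cm n) ω X]
    (hX : NoV n X) {w : Chart n X → Cm n → Matrix (Fin n) (Fin n) ℂ} (hw : IsKahler w)
    {E Γ : Type} [TopologicalSpace E] [ConnectedSpace E] [Group Γ] [MulAction Γ E]
    {p : E → X} (hG : IsGalois Γ p) (hfr : H573.DK.FinRep Γ) :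
    ¬ Lim0Concl (n := n) (Γ := Γ) p := by
  rintro ⟨W', i1', i2', i3', π', Θ', u', hΘ', hπ', hpot', hb', hne'⟩
  obtain ⟨W, i1, i2, i3, π, Θ, u, hΘ, hπ, hpot, hb, hne, hspan⟩ :=
    exists_res0 hG.cov (fun g y => ((hG.orb y (g • y)).2 ⟨g, rfl⟩).symm) hΘ' hπ' hpot' hb' hne'
  set F : E → Cm 0 := fun _ => 0 with hF
  obtain ⟨r, m, H, j1, j2, j3, v, U, N, 𝒢, ⟨y, hy⟩, hL⟩ :=
    leaf0_of H812.NSF.ns2 hw hG hfr hΘ hπ hpot hb hne F
  obtain ⟨C, -, -, -, -⟩ := exists_eCoc hw hG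
  have hfg : Group.FG Γ := H639.V.fg_of_coc C
  refine hX E Γ p hG 0 F (fun y e he => ?_)
    (aff_of_trans (c := fun _ => 0) fun g y => by simp [hF]) H (0 + (r + 1)) m (by omega)
    hL.m_pos v hL.form (fun g => ⟨U g, fun y e he ξ => hL.equi g y e he ξ⟩) (nff_of_leaf hL hy) ?_
  · exact ⟨fun _ => 0, Eventually.of_forall fun _ => rfl, analyticAt_const⟩
  · exact H378.T.lfin0 hG hfg hfr (t := 0) (vpot0 hΘ hpot F 0) (vequi0 hπ hb F 0 ⊤) hspan hL

/-- **(I3)**: the case `q = 0` of T3⁺ -/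
theorem zeroStmt : H650.T.ZeroStmt noVC := by
  intro n X _ _ _ _ _ _ hX w E Γ _ _ _ _ p F G K A c hS hK
  have hKG : K = G := by
    ext g
    rw [hS.ker]
    exact ⟨fun h => h.1, fun h => ⟨h, Subsingleton.elim _ _⟩⟩
  subst hKG
  have hfi := hS.dat.fi
  have hfr : H573.DK.FinRep Γ := finRep_of_in hfi hS.fr
  exact core0N hX hS.kah hS.gal hfr (H15.T.limK n X w hS.kah E Γ p hS.gal fun h =>
    hK (kaz_sub hS.dat.normal hfi h))

end Vale.Agent.P284.H383.T
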